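import Vale.Agent.Lib.P324.GenGap
import Vale.Agent.Lib.P324.Graham

namespace Vale.Agent.Results.P324.A_AllMachineCounts

open Vale.Agent.Lib.P324

/-- The order-free bound (least number of antichains of size at most `m` covering the jobs) against
the optimal makespan on `m` machines: it is always a lower bound; it is exact for `m = 2`; for every
`m` it is within the factor `2 - 1/m`; for every `m ≥ 3` it is off by the factor `3/2` on
arbitrarily large instances. -/
theorem result :
    (∀ (V : Type) [Fintype V] (m T : ℕ) (E : V → V → Prop) (τ : V → ℕ),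
      IsSchedule m T E τ → IsAntichainPacking m T E τ) ∧
    (∀ (V : Type) [Fintype V] (T : ℕ) (E : V → V → Prop) (σ : V → ℕ), Acyclic E →
      IsAntichainPacking 2 T E σ → ∃ τ, IsSchedule 2 T E τ) ∧
    (∀ (V : Type) [Fintype V] (m T : ℕ) (E : V → V → Prop) (σ : V → ℕ), 1 ≤ m → Acyclic E →
      IsAntichainPacking m T E σ → ∃ N τ, IsSchedule m N E τ ∧ m * N ≤ (2 * m - 1) * T) ∧
    (∀ m k : ℕ, 3 ≤ m → ∃ (V : Type) (_ : Fintype V) (E : V → V → Prop),
      Fintype.card V = 2 * m * k ∧ Acyclic E ∧
      (∃ σ, IsAntichainPacking m (2 * k) E σ) ∧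
      (∀ T σ, IsAntichainPacking m T E σ → 2 * k ≤ T) ∧
      (∃ τ, IsSchedule m (3 * k) E τ) ∧
      (∀ T τ, IsSchedule m T E τ → 3 * k ≤ T)) := by
  classical
  refine ⟨fun V _ m T E τ h => schedule_packing h,
    fun V _ T E σ hE h => two_machines_final E hE T σ h,
    fun V _ m T E σ hm hE h => graham_packing E hE m T hm σ h,
    fun m k hm => ⟨GV m k, inferInstance, gE m k, g_card (by omega) k, gE_acyclic m k,
      ⟨_, g_packing (by omega) k⟩, fun T σ h => g_packing_lower (by omega) h,
      ⟨_, g_schedule (by omega) k⟩, fun T τ h => g_lower hm h⟩⟩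

end Vale.Agent.Results.P324.A_AllMachineCounts
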