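import Vale.Agent.Lib.P324.GenGap
import Vale.Agent.Lib.P324.Graham
import Vale.Agent.Lib.P324.TH.Core
import Vale.Agent.Lib.P324.Fam.Main

namespace Vale.Agent.Results.P324.A_ExactGapPlusFamily

open Vale.Agent.Lib.P324

/-- The order-free bound (least number of antichains of size at most `m` covering the jobs) against
the optimal makespan on `m` machines: a lower bound for every `m`; exact for `m = 2`; within the
factor `3/2` for `m = 3`, which is sharp; within the factor `2 - 1/m` for every `m`; off by `3/2` for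
every `m ≥ 3` and by `2 - 1/r` as soon as `m > r (r - 1)`, on arbitrarily large instances. -/
theorem result :
    (∀ (V : Type) [Fintype V] (m T : ℕ) (E : V → V → Prop) (τ : V → ℕ),
      IsSchedule m T E τ → IsAntichainPacking m T E τ) ∧
    (∀ (V : Type) [Fintype V] (T : ℕ) (E : V → V → Prop) (σ : V → ℕ), Acyclic E →
      IsAntichainPacking 2 T E σ → ∃ τ, IsSchedule 2 T E τ) ∧
    (∀ (V : Type) [Fintype V] (T : ℕ) (E : V → V → Prop) (σ : V → ℕ), Acyclic E →
      IsAntichainPacking 3 T E σ → ∃ N τ, IsSchedule 3 N E τ ∧ 2 * N ≤ 3 * T) ∧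
    (∀ (V : Type) [Fintype V] (m T : ℕ) (E : V → V → Prop) (σ : V → ℕ), 1 ≤ m → Acyclic E →
      IsAntichainPacking m T E σ → ∃ N τ, IsSchedule m N E τ ∧ m * N ≤ (2 * m - 1) * T) ∧
    (∀ m k : ℕ, 3 ≤ m → ∃ (V : Type) (_ : Fintype V) (E : V → V → Prop),
      Fintype.card V = 2 * m * k ∧ Acyclic E ∧
      (∃ σ, IsAntichainPacking m (2 * k) E σ) ∧
      (∀ T σ, IsAntichainPacking m T E σ → 2 * k ≤ T) ∧
      (∃ τ, IsSchedule m (3 * k) E τ) ∧
      (∀ T τ, IsSchedule m T E τ → 3 * k ≤ T)) ∧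
    (∀ m r k : ℕ, 1 ≤ r → r * (r - 1) < m → ∃ (V : Type) (_ : Fintype V) (E : V → V → Prop),
      Fintype.card V = r * m * k ∧ Acyclic E ∧
      (∃ σ, IsAntichainPacking m (r * k) E σ) ∧
      (∀ T σ, IsAntichainPacking m T E σ → r * k ≤ T) ∧
      (∀ T τ, IsSchedule m T E τ → (2 * r - 1) * k ≤ T)) := by
  classical
  refine ⟨fun V _ m T E τ h => schedule_packing h,
    fun V _ T E σ hE h => two_machines_final E hE T σ h,
    fun V _ T E σ hE h => three_halves E hE T σ h,
    fun V _ m T E σ hm hE h => graham_packing E hE m T hm σ h,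
    fun m k hm => ⟨GV m k, inferInstance, gE m k, g_card (by omega) k, gE_acyclic m k,
      ⟨_, g_packing (by omega) k⟩, fun T σ h => g_packing_lower (by omega) h,
      ⟨_, g_schedule (by omega) k⟩, fun T τ h => g_lower hm h⟩, ?_⟩
  intro m r k hr hrm
  have hle : r ≤ m := by
    rcases Nat.lt_or_ge r 2 with h | h
    · omega
    · have : r * 1 ≤ r * (r - 1) := Nat.mul_le_mul_left r (by omega)
      omega
  exact ⟨Fam.HV m r k, inferInstance, Fam.hE m r k, Fam.h_card hr hle k, Fam.hE_acyclic m r k,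
    ⟨_, Fam.h_packing hr hle k⟩, fun T σ h => Fam.h_packing_lower hr hle h,
    fun T τ h => Fam.h_lower hr hrm h⟩

end Vale.Agent.Results.P324.A_ExactGapPlusFamily
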