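import Vale.Agent.Lib.P324.ThreeGap
import Vale.Agent.Lib.P324.Split

namespace Vale.Agent.Results.P324.A_MatchingDichotomy

open Vale.Agent.Lib.P324

/-- The order-free bound (least number of antichains of size at most `m` covering the jobs) against
the optimal makespan: it is always a lower bound; on two machines it is exact; on three machines it
is within a factor two, but it is off by the factor `3/2` on arbitrarily large instances. -/
theorem result :
    (∀ (n m T : ℕ) (E : Fin n → Fin n → Prop) (τ : Fin n → ℕ),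
      IsSchedule m T E τ → IsAntichainPacking m T E τ) ∧
    (∀ (n T : ℕ) (E : Fin n → Fin n → Prop) (σ : Fin n → ℕ), Acyclic E →
      IsAntichainPacking 2 T E σ → ∃ τ, IsSchedule 2 T E τ) ∧
    (∀ (n T : ℕ) (E : Fin n → Fin n → Prop) (σ : Fin n → ℕ), Acyclic E →
      IsAntichainPacking 3 T E σ → ∃ τ, IsSchedule 3 (2 * T) E τ) ∧
    (∀ k : ℕ, ∃ E : Fin (6 * k) → Fin (6 * k) → Prop, Acyclic E ∧
      (∃ σ, IsAntichainPacking 3 (2 * k) E σ) ∧
      (∀ T σ, IsAntichainPacking 3 T E σ → 2 * k ≤ T) ∧
      (∃ τ, IsSchedule 3 (3 * k) E τ) ∧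
      (∀ T τ, IsSchedule 3 T E τ → 3 * k ≤ T)) := by
  refine ⟨fun n m T E τ h => schedule_packing h,
    fun n T E σ hE h => two_machines_final E hE T σ h,
    fun n T E σ hE h => three_upper hE h,
    fun k => ⟨gapE k, gap_acyclic k, ⟨_, gap_packing k⟩,
      fun T σ h => gap_packing_lower h, ⟨_, gap_schedule k⟩, fun T τ h => gap_lower h⟩⟩

end Vale.Agent.Results.P324.A_MatchingDichotomy
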