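import Vale.Agent.Lib.P324.ThreeGap

namespace Vale.Agent.Results.P324.PackingGapThree

open Vale.Agent.Lib.P324

/-- Forgetting the order of the slots is a relaxation of scheduling (first part); on three machines
it loses a factor `3/2`: for every `k` there is a precedence graph on `6k` unit jobs whose jobs split
into `2k` (and not fewer) antichains of size at most three, while its optimal three-machine makespan
is exactly `3k`. -/
theorem result :
    (∀ (n m T : ℕ) (E : Fin n → Fin n → Prop) (τ : Fin n → ℕ),
      IsSchedule m T E τ → IsAntichainPacking m T E τ) ∧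
    (∀ k : ℕ, ∃ E : Fin (6 * k) → Fin (6 * k) → Prop, Acyclic E ∧
      (∃ σ, IsAntichainPacking 3 (2 * k) E σ) ∧
      (∀ T σ, IsAntichainPacking 3 T E σ → 2 * k ≤ T) ∧
      (∃ τ, IsSchedule 3 (3 * k) E τ) ∧
      (∀ T τ, IsSchedule 3 T E τ → 3 * k ≤ T)) := by
  refine ⟨fun n m T E τ h => schedule_packing h, fun k => ⟨gapE k, gap_acyclic k, ⟨_, gap_packing k⟩,
    fun T σ h => gap_packing_lower h, ⟨_, gap_schedule k⟩, fun T τ h => gap_lower h⟩⟩

end Vale.Agent.Results.P324.PackingGapThree
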